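import Mathlib
import Vale.Agent.Lib.P328.helper74.ChainDefs

/-!
P328: level sets of a box of natural-number vectors, the three level sequences
`wS`, `lS`, `qS`, and their behaviour when one more coordinate is added.
-/

namespace Vale.Agent.Lib.P328.Box

open Finset
open Vale.Agent.Lib.P328.helper74

variable {n : ℕ}

/-- The box of all vectors `u` with `u j ≤ c j` for every `j`. -/
def box (c : Fin n → ℕ) : Finset (Fin n → ℕ) :=
  Fintype.piFinset (fun j => Finset.range (c j + 1))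

/-- The vectors of the box with coordinate sum `ρ`. -/
def lev (c : Fin n → ℕ) (ρ : ℤ) : Finset (Fin n → ℕ) :=
  (box c).filter (fun u => ((∑ j, u j : ℕ) : ℤ) = ρ)

/-- The weight of the coordinates of `u` that sit at the top of the box. -/
def zs (c : Fin n → ℕ) (s : Fin n → ℝ) (u : Fin n → ℕ) : ℝ :=
  ∑ j, if u j = c j then s j else 0

/-- The squared weight of the coordinates of `u` that sit one below the top of the box. -/
def ds (c : Fin n → ℕ) (s : Fin n → ℝ) (u : Fin n → ℕ) : ℝ :=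
  ∑ j, if u j + 1 = c j then (s j) ^ 2 else 0

/-- Number of vectors of the box at level `ρ`. -/
def wS (c : Fin n → ℕ) (ρ : ℤ) : ℝ := ((lev c ρ).card : ℝ)

/-- First level sequence. -/
def lS (c : Fin n → ℕ) (s : Fin n → ℝ) (ρ : ℤ) : ℝ := ∑ u ∈ lev c ρ, zs c s u

/-- Second level sequence. -/
def qS (c : Fin n → ℕ) (s : Fin n → ℝ) (ρ : ℤ) : ℝ :=
  ∑ u ∈ lev c ρ, ((zs c s u) ^ 2 - ds c s u)

theorem mem_box (c : Fin n → ℕ) (u : Fin n → ℕ) : u ∈ box c ↔ ∀ j, u j ≤ c j := by
  unfold box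
  rw [Fintype.mem_piFinset]
  refine forall_congr' (fun j => ?_)
  rw [Finset.mem_range, Nat.lt_succ_iff]

theorem mem_lev (c : Fin n → ℕ) (ρ : ℤ) (u : Fin n → ℕ) :
    u ∈ lev c ρ ↔ (∀ j, u j ≤ c j) ∧ ((∑ j, u j : ℕ) : ℤ) = ρ := by
  unfold lev
  rw [Finset.mem_filter, mem_box]

/-- Splitting off the first coordinate of a level set. -/
theorem sum_lev_cons (C : ℕ) (c : Fin n → ℕ) (ρ : ℤ) (F : (Fin (n + 1) → ℕ) → ℝ) :
    ∑ u ∈ lev (Fin.cons C c : Fin (n + 1) → ℕ) ρ, F u
      = ∑ k ∈ Finset.range (C + 1), ∑ u ∈ lev c (ρ - (k : ℤ)), F (Fin.cons k u) := by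
  rw [Finset.sum_sigma']
  refine Finset.sum_bij' (fun u _ => (⟨u 0, Fin.tail u⟩ : Σ _ : ℕ, (Fin n → ℕ)))
    (fun p _ => (Fin.cons p.1 p.2 : Fin (n + 1) → ℕ)) ?_ ?_ ?_ ?_ ?_
  · intro u hu
    rw [mem_lev] at hu
    rw [Finset.mem_sigma, Finset.mem_range, mem_lev]
    obtain ⟨h1, h2⟩ := hu
    refine ⟨?_, ?_, ?_⟩
    · have := h1 0
      simp only [Fin.cons_zero] at this
      show u 0 < C + 1
      omega
    · intro j
      have := h1 j.succ
      simp only [Fin.cons_succ] at this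
      exact this
    · rw [Fin.sum_univ_succ] at h2
      show ((∑ j, Fin.tail u j : ℕ) : ℤ) = ρ - ((u 0 : ℕ) : ℤ)
      simp only [Fin.tail]
      push_cast at h2 ⊢
      linarith
  · intro p hp
    rw [Finset.mem_sigma, Finset.mem_range, mem_lev] at hp
    rw [mem_lev]
    obtain ⟨h0, h1, h2⟩ := hp
    refine ⟨?_, ?_⟩
    · intro j
      refine Fin.cases ?_ (fun i => ?_) j
      · simp only [Fin.cons_zero]
        omega
      · simp only [Fin.cons_succ]
        exact h1 i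
    · rw [Fin.sum_univ_succ]
      simp only [Fin.cons_zero, Fin.cons_succ]
      push_cast at h2 ⊢
      linarith
  · intro u _
    exact Fin.cons_self_tail u
  · intro p _
    simp
  · intro u _
    simp [Fin.cons_self_tail]

theorem lev_zero (c : Fin 0 → ℕ) (ρ : ℤ) :
    lev c ρ = if ρ = 0 then Finset.univ else ∅ := by
  ext u
  rw [mem_lev]
  by_cases h : ρ = 0
  · simp only [h, if_true, Finset.mem_univ, iff_true]
    exact ⟨fun j => j.elim0, by simp⟩
  · simp only [h, if_false, Finset.notMem_empty, iff_false, not_and]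
    intro _
    simp only [Finset.univ_eq_empty, Finset.sum_empty, Nat.cast_zero]
    exact fun h' => h h'.symm

theorem wS_zero (c : Fin 0 → ℕ) (ρ : ℤ) : wS c ρ = if ρ = 0 then 1 else 0 := by
  unfold wS
  rw [lev_zero]
  by_cases h : ρ = 0
  · simp [h]
  · simp [h]

theorem lS_zero (c : Fin 0 → ℕ) (s : Fin 0 → ℝ) (ρ : ℤ) : lS c s ρ = 0 := by
  unfold lS zs
  simp

theorem qS_zero (c : Fin 0 → ℕ) (s : Fin 0 → ℝ) (ρ : ℤ) : qS c s ρ = 0 := by
  unfold qS zs ds
  simp

theorem wS_eq_sum (c : Fin n → ℕ) (ρ : ℤ) : wS c ρ = ∑ _u ∈ lev c ρ, (1 : ℝ) := by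
  unfold wS
  rw [Finset.sum_const, nsmul_eq_mul, mul_one]

theorem zs_cons (C : ℕ) (c : Fin n → ℕ) (t : ℝ) (s : Fin n → ℝ) (k : ℕ) (u : Fin n → ℕ) :
    zs (Fin.cons C c : Fin (n + 1) → ℕ) (Fin.cons t s : Fin (n + 1) → ℝ)
        (Fin.cons k u : Fin (n + 1) → ℕ)
      = (if k = C then t else 0) + zs c s u := by
  unfold zs
  rw [Fin.sum_univ_succ]
  simp only [Fin.cons_zero, Fin.cons_succ]

theorem ds_cons (C : ℕ) (c : Fin n → ℕ) (t : ℝ) (s : Fin n → ℝ) (k : ℕ) (u : Fin n → ℕ) :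
    ds (Fin.cons C c : Fin (n + 1) → ℕ) (Fin.cons t s : Fin (n + 1) → ℝ)
        (Fin.cons k u : Fin (n + 1) → ℕ)
      = (if k + 1 = C then t ^ 2 else 0) + ds c s u := by
  unfold ds
  rw [Fin.sum_univ_succ]
  simp only [Fin.cons_zero, Fin.cons_succ]

theorem wS_cons (C : ℕ) (c : Fin n → ℕ) :
    wS (Fin.cons C c : Fin (n + 1) → ℕ) = addW C (wS c) := by
  funext ρ
  rw [wS_eq_sum, sum_lev_cons]
  unfold addW
  refine Finset.sum_congr rfl (fun k _ => ?_)
  rw [wS_eq_sum]

theorem sum_range_ite_top (C : ℕ) (a : ℝ) (f : ℕ → ℝ) :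
    ∑ k ∈ Finset.range (C + 1), (if k = C then a else 0) * f k = a * f C := by
  rw [Finset.sum_eq_single C]
  · simp
  · intro k _ hk
    simp [hk]
  · intro h
    exact absurd (Finset.mem_range.mpr (Nat.lt_succ_self C)) h

theorem sum_range_ite_pred (C : ℕ) (a : ℝ) (f : ℕ → ℝ) :
    ∑ k ∈ Finset.range (C + 1), (if k + 1 = C then a else 0) * f k
      = if 1 ≤ C then a * f (C - 1) else 0 := by
  by_cases hC : 1 ≤ C
  · rw [if_pos hC, Finset.sum_eq_single (C - 1)]
    · have : C - 1 + 1 = C := by omega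
      simp [this]
    · intro k _ hk
      have : ¬ (k + 1 = C) := by omega
      simp [this]
    · intro h
      exact absurd (Finset.mem_range.mpr (by omega)) h
  · rw [if_neg hC]
    refine Finset.sum_eq_zero (fun k _ => ?_)
    have : ¬ (k + 1 = C) := by omega
    simp [this]

theorem lS_cons (C : ℕ) (c : Fin n → ℕ) (t : ℝ) (s : Fin n → ℝ) :
    lS (Fin.cons C c : Fin (n + 1) → ℕ) (Fin.cons t s : Fin (n + 1) → ℝ)
      = addL C t (wS c) (lS c s) := by
  funext ρ
  unfold lS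
  rw [sum_lev_cons]
  unfold addL
  have h1 : ∀ k ∈ Finset.range (C + 1),
      ∑ u ∈ lev c (ρ - (k : ℤ)), zs (Fin.cons C c : Fin (n + 1) → ℕ)
          (Fin.cons t s : Fin (n + 1) → ℝ) (Fin.cons k u : Fin (n + 1) → ℕ)
        = (if k = C then t else 0) * wS c (ρ - (k : ℤ)) + lS c s (ρ - (k : ℤ)) := by
    intro k _
    rw [Finset.sum_congr rfl (fun u _ => zs_cons C c t s k u), Finset.sum_add_distrib,
      Finset.sum_const, nsmul_eq_mul]
    unfold wS lS
    ring
  rw [Finset.sum_congr rfl h1, Finset.sum_add_distrib,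
    sum_range_ite_top C t (fun k => wS c (ρ - (k : ℤ)))]
  unfold lS
  ring

theorem qS_cons (C : ℕ) (c : Fin n → ℕ) (t : ℝ) (s : Fin n → ℝ) :
    qS (Fin.cons C c : Fin (n + 1) → ℕ) (Fin.cons t s : Fin (n + 1) → ℝ)
      = addQ C t (wS c) (lS c s) (qS c s) := by
  funext ρ
  unfold qS
  rw [sum_lev_cons]
  unfold addQ
  have h1 : ∀ k ∈ Finset.range (C + 1),
      ∑ u ∈ lev c (ρ - (k : ℤ)),
          ((zs (Fin.cons C c : Fin (n + 1) → ℕ) (Fin.cons t s : Fin (n + 1) → ℝ)
              (Fin.cons k u : Fin (n + 1) → ℕ)) ^ 2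
            - ds (Fin.cons C c : Fin (n + 1) → ℕ) (Fin.cons t s : Fin (n + 1) → ℝ)
              (Fin.cons k u : Fin (n + 1) → ℕ))
        = (if k = C then t ^ 2 else 0) * wS c (ρ - (k : ℤ))
          + (if k = C then 2 * t else 0) * lS c s (ρ - (k : ℤ))
          + qS c s (ρ - (k : ℤ))
          - (if k + 1 = C then t ^ 2 else 0) * wS c (ρ - (k : ℤ)) := by
    intro k _
    have h2 : ∀ u ∈ lev c (ρ - (k : ℤ)),
        ((zs (Fin.cons C c : Fin (n + 1) → ℕ) (Fin.cons t s : Fin (n + 1) → ℝ)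
              (Fin.cons k u : Fin (n + 1) → ℕ)) ^ 2
            - ds (Fin.cons C c : Fin (n + 1) → ℕ) (Fin.cons t s : Fin (n + 1) → ℝ)
              (Fin.cons k u : Fin (n + 1) → ℕ))
          = (if k = C then t ^ 2 else 0) * 1 + (if k = C then 2 * t else 0) * zs c s u
            + ((zs c s u) ^ 2 - ds c s u) - (if k + 1 = C then t ^ 2 else 0) * 1 := by
      intro u _
      rw [zs_cons, ds_cons]
      by_cases hk : k = C
      · simp only [hk, if_true]
        ring
      · simp only [hk, if_false]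
        ring
    rw [Finset.sum_congr rfl h2, Finset.sum_sub_distrib, Finset.sum_add_distrib,
      Finset.sum_add_distrib, ← Finset.mul_sum, ← Finset.mul_sum, ← Finset.mul_sum,
      ← wS_eq_sum]
    rfl
  rw [Finset.sum_congr rfl h1, Finset.sum_sub_distrib, Finset.sum_add_distrib,
    Finset.sum_add_distrib, sum_range_ite_top C (t ^ 2) (fun k => wS c (ρ - (k : ℤ))),
    sum_range_ite_top C (2 * t) (fun k => lS c s (ρ - (k : ℤ))),
    sum_range_ite_pred C (t ^ 2) (fun k => wS c (ρ - (k : ℤ)))]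
  by_cases hC : 1 ≤ C
  · rw [if_pos hC, if_pos hC]
    have h3 : ρ - ((C - 1 : ℕ) : ℤ) = ρ - (C : ℤ) + 1 := by
      rw [Nat.cast_sub hC]
      push_cast
      ring
    rw [h3]
    unfold qS
    ring
  · rw [if_neg hC, if_neg hC]
    unfold qS
    ring

/-- The level sequences of every box have the property `Lor`, provided the column step
preserves it. -/
theorem Lor_box
    (hstep : ∀ (m C : ℕ) (t : ℝ) (w l q : ℤ → ℝ), Lor m w l q →
      Lor (m + C) (addW C w) (addL C t w l) (addQ C t w l q)) :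
    ∀ (n : ℕ) (c : Fin n → ℕ) (s : Fin n → ℝ), Lor (∑ j, c j) (wS c) (lS c s) (qS c s) := by
  intro n
  induction n with
  | zero =>
    intro c s
    have hw : wS c = fun ρ => if ρ = 0 then (1 : ℝ) else 0 := funext (wS_zero c)
    have hl : lS c s = fun _ => 0 := funext (lS_zero c s)
    have hq : qS c s = fun _ => 0 := funext (qS_zero c s)
    rw [hw, hl, hq]
    simpa using Lor_base
  | succ n ih =>
    intro c s
    have hc : c = Fin.cons (c 0) (Fin.tail c) := (Fin.cons_self_tail c).symm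
    have hs : s = Fin.cons (s 0) (Fin.tail s) := (Fin.cons_self_tail s).symm
    have hsum : ∑ j, c j = (∑ j, Fin.tail c j) + c 0 := by
      rw [Fin.sum_univ_succ, add_comm]
      rfl
    rw [hsum, hc, hs, wS_cons, lS_cons, qS_cons]
    simp only [Fin.tail_cons, Fin.cons_zero]
    exact hstep _ _ _ _ _ _ (ih (Fin.tail c) (Fin.tail s))

/-- The vectors `u` of level `r` with `u ≤ c`. -/
def S0 (c : Fin n → ℕ) (r : ℕ) : Finset (Fin n → ℕ) :=
  (box c).filter (fun u => ∑ i, u i = r)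

/-- The vectors `u` of level `r` with `u + e_j ≤ c`. -/
def S1 (c : Fin n → ℕ) (r : ℕ) (j : Fin n) : Finset (Fin n → ℕ) :=
  (box c).filter (fun u => (∀ i, u i + (if i = j then 1 else 0) ≤ c i) ∧ ∑ i, u i = r)

/-- The vectors `u` of level `r` with `u + e_j + e_l ≤ c`. -/
def S2 (c : Fin n → ℕ) (r : ℕ) (j l : Fin n) : Finset (Fin n → ℕ) :=
  (box c).filter (fun u =>
    (∀ i, u i + (if i = j then 1 else 0) + (if i = l then 1 else 0) ≤ c i) ∧ ∑ i, u i = r)

/-- `G0 c r = #{u : u ≤ c, |u| = r}`. -/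
def G0 (c : Fin n → ℕ) (r : ℕ) : ℕ := (S0 c r).card

/-- `G1 c r j = #{u : u + e_j ≤ c, |u| = r}`. -/
def G1 (c : Fin n → ℕ) (r : ℕ) (j : Fin n) : ℕ := (S1 c r j).card

/-- `G2 c r j l = #{u : u + e_j + e_l ≤ c, |u| = r}`. -/
def G2 (c : Fin n → ℕ) (r : ℕ) (j l : Fin n) : ℕ := (S2 c r j l).card

theorem mem_S0 (c : Fin n → ℕ) (r : ℕ) (u : Fin n → ℕ) :
    u ∈ S0 c r ↔ (∀ i, u i ≤ c i) ∧ ∑ i, u i = r := by
  unfold S0
  rw [Finset.mem_filter, mem_box]

theorem mem_S1 (c : Fin n → ℕ) (r : ℕ) (j : Fin n) (u : Fin n → ℕ) :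
    u ∈ S1 c r j ↔ (∀ i, u i + (if i = j then 1 else 0) ≤ c i) ∧ ∑ i, u i = r := by
  unfold S1
  rw [Finset.mem_filter, mem_box]
  constructor
  · intro h
    exact h.2
  · intro h
    exact ⟨fun i => le_trans (Nat.le_add_right _ _) (h.1 i), h⟩

theorem mem_S2 (c : Fin n → ℕ) (r : ℕ) (j l : Fin n) (u : Fin n → ℕ) :
    u ∈ S2 c r j l ↔
      (∀ i, u i + (if i = j then 1 else 0) + (if i = l then 1 else 0) ≤ c i) ∧ ∑ i, u i = r := by
  unfold S2
  rw [Finset.mem_filter, mem_box]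
  constructor
  · intro h
    exact h.2
  · intro h
    refine ⟨fun i => ?_, h⟩
    have := h.1 i
    omega

theorem S0_eq_lev (c : Fin n → ℕ) (r : ℕ) : S0 c r = lev c (r : ℤ) := by
  ext u
  rw [mem_S0, mem_lev, Nat.cast_inj]

theorem S1_eq (c : Fin n → ℕ) (r : ℕ) (j : Fin n) :
    S1 c r j = (lev c (r : ℤ)).filter (fun u => u j ≠ c j) := by
  ext u
  rw [mem_S1, Finset.mem_filter, mem_lev, Nat.cast_inj]
  constructor
  · rintro ⟨h1, h2⟩
    refine ⟨⟨fun i => le_trans (Nat.le_add_right _ _) (h1 i), h2⟩, ?_⟩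
    have := h1 j
    simp only [if_true] at this
    omega
  · rintro ⟨⟨h1, h2⟩, h3⟩
    refine ⟨fun i => ?_, h2⟩
    by_cases hi : i = j
    · subst hi
      have := h1 i
      simp only [if_true]
      omega
    · simp only [hi, if_false]
      exact h1 i

theorem S2_eq (c : Fin n → ℕ) (r : ℕ) (j l : Fin n) :
    S2 c r j l = (lev c (r : ℤ)).filter
      (fun u => if j = l then u j + 2 ≤ c j else (u j ≠ c j ∧ u l ≠ c l)) := by
  ext u
  rw [mem_S2, Finset.mem_filter, mem_lev, Nat.cast_inj]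
  by_cases hjl : j = l
  · subst hjl
    simp only [if_true]
    constructor
    · rintro ⟨h1, h2⟩
      refine ⟨⟨fun i => ?_, h2⟩, ?_⟩
      · have := h1 i
        omega
      · have := h1 j
        simp only [if_true] at this
        omega
    · rintro ⟨⟨h1, h2⟩, h3⟩
      refine ⟨fun i => ?_, h2⟩
      by_cases hi : i = j
      · subst hi
        simp only [if_true]
        omega
      · simp only [hi, if_false]
        exact h1 i
  · simp only [hjl, if_false]
    have hlj : ¬ l = j := fun h => hjl h.symm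
    constructor
    · rintro ⟨h1, h2⟩
      refine ⟨⟨fun i => ?_, h2⟩, ?_, ?_⟩
      · have := h1 i
        omega
      · have := h1 j
        simp only [if_true] at this
        omega
      · have := h1 l
        simp only [if_true] at this
        omega
    · rintro ⟨⟨h1, h2⟩, h3, h4⟩
      refine ⟨fun i => ?_, h2⟩
      by_cases hi : i = j
      · subst hi
        have := h1 i
        simp only [if_true, hjl, if_false]
        omega
      · by_cases hi' : i = l
        · subst hi'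
          have := h1 i
          simp only [if_true, hi, if_false]
          omega
        · simp only [hi, hi', if_false]
          exact h1 i

/-- Indicator of the top of the box in coordinate `j`. -/
def zt (c : Fin n → ℕ) (u : Fin n → ℕ) (j : Fin n) : ℝ := if u j = c j then 1 else 0

/-- Indicator of one below the top of the box in coordinate `j`. -/
def et (c : Fin n → ℕ) (u : Fin n → ℕ) (j : Fin n) : ℝ := if u j + 1 = c j then 1 else 0

theorem G0_eq (c : Fin n → ℕ) (r : ℕ) : (G0 c r : ℝ) = wS c (r : ℤ) := by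
  unfold G0 wS
  rw [S0_eq_lev]

theorem G1_eq (c : Fin n → ℕ) (r : ℕ) (j : Fin n) :
    (G1 c r j : ℝ) = ∑ u ∈ lev c (r : ℤ), (1 - zt c u j) := by
  unfold G1
  rw [S1_eq, Finset.card_filter, Nat.cast_sum]
  refine Finset.sum_congr rfl (fun u _ => ?_)
  unfold zt
  by_cases h : u j = c j
  · simp [h]
  · simp [h]

theorem G2_eq (c : Fin n → ℕ) (r : ℕ) (j l : Fin n) :
    (G2 c r j l : ℝ) = ∑ u ∈ lev c (r : ℤ),
      ((1 - zt c u j) * (1 - zt c u l) - if j = l then et c u j else 0) := by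
  unfold G2
  rw [S2_eq, Finset.card_filter, Nat.cast_sum]
  refine Finset.sum_congr rfl (fun u hu => ?_)
  rw [mem_lev] at hu
  have hj := hu.1 j
  unfold zt et
  by_cases hjl : j = l
  · subst hjl
    simp only [if_true]
    by_cases h1 : u j = c j
    · have h2 : ¬ (u j + 2 ≤ c j) := by omega
      have h3 : ¬ (u j + 1 = c j) := by omega
      simp [h1]
    · by_cases h3 : u j + 1 = c j
      · have h2 : ¬ (u j + 2 ≤ c j) := by omega
        simp [h1, h2, h3]
      · have h2 : u j + 2 ≤ c j := by omega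
        simp [h1, h2, h3]
  · simp only [hjl, if_false]
    by_cases h1 : u j = c j
    · simp [h1]
    · by_cases h2 : u l = c l
      · simp [h2]
      · simp [h1, h2]

theorem zs_eq (c : Fin n → ℕ) (s : Fin n → ℝ) (u : Fin n → ℕ) :
    zs c s u = ∑ j, s j * zt c u j := by
  unfold zs zt
  refine Finset.sum_congr rfl (fun j _ => ?_)
  by_cases h : u j = c j
  · simp [h]
  · simp [h]

theorem ds_eq (c : Fin n → ℕ) (s : Fin n → ℝ) (u : Fin n → ℕ) :
    ds c s u = ∑ j, s j ^ 2 * et c u j := by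
  unfold ds et
  refine Finset.sum_congr rfl (fun j _ => ?_)
  by_cases h : u j + 1 = c j
  · simp [h]
  · simp [h]

/-- First identity: `∑_j s_j G(c - e_j; r) = (∑ s) w_r - l_r`. -/
theorem sum_G1 (c : Fin n → ℕ) (r : ℕ) (s : Fin n → ℝ) :
    ∑ j, s j * (G1 c r j : ℝ) = (∑ j, s j) * wS c (r : ℤ) - lS c s (r : ℤ) := by
  have h1 : ∀ j, s j * (G1 c r j : ℝ) = ∑ u ∈ lev c (r : ℤ), s j * (1 - zt c u j) := by
    intro j
    rw [G1_eq, Finset.mul_sum]
  rw [Finset.sum_congr rfl (fun j _ => h1 j), Finset.sum_comm]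
  unfold lS
  rw [wS_eq_sum, Finset.mul_sum, ← Finset.sum_sub_distrib]
  refine Finset.sum_congr rfl (fun u _ => ?_)
  rw [zs_eq, mul_one, ← Finset.sum_sub_distrib]
  refine Finset.sum_congr rfl (fun j _ => ?_)
  ring

/-- Second identity:
`∑_{j,l} s_j s_l G(c - e_j - e_l; r) = (∑ s)² w_r - 2 (∑ s) l_r + q_r`. -/
theorem sum_G2 (c : Fin n → ℕ) (r : ℕ) (s : Fin n → ℝ) :
    ∑ j, ∑ l, s j * s l * (G2 c r j l : ℝ)
      = (∑ j, s j) ^ 2 * wS c (r : ℤ) - 2 * (∑ j, s j) * lS c s (r : ℤ) + qS c s (r : ℤ) := by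
  have h1 : ∀ j l, s j * s l * (G2 c r j l : ℝ) = ∑ u ∈ lev c (r : ℤ),
      s j * s l * ((1 - zt c u j) * (1 - zt c u l) - if j = l then et c u j else 0) := by
    intro j l
    rw [G2_eq, Finset.mul_sum]
  have h2 : ∑ j, ∑ l, s j * s l * (G2 c r j l : ℝ) = ∑ u ∈ lev c (r : ℤ), ∑ j, ∑ l,
      s j * s l * ((1 - zt c u j) * (1 - zt c u l) - if j = l then et c u j else 0) := by
    calc ∑ j, ∑ l, s j * s l * (G2 c r j l : ℝ)
        = ∑ j, ∑ l, ∑ u ∈ lev c (r : ℤ),
            s j * s l * ((1 - zt c u j) * (1 - zt c u l) - if j = l then et c u j else 0) :=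
          Finset.sum_congr rfl (fun j _ => Finset.sum_congr rfl (fun l _ => h1 j l))
      _ = ∑ j, ∑ u ∈ lev c (r : ℤ), ∑ l,
            s j * s l * ((1 - zt c u j) * (1 - zt c u l) - if j = l then et c u j else 0) :=
          Finset.sum_congr rfl (fun j _ => Finset.sum_comm)
      _ = ∑ u ∈ lev c (r : ℤ), ∑ j, ∑ l,
            s j * s l * ((1 - zt c u j) * (1 - zt c u l) - if j = l then et c u j else 0) :=
          Finset.sum_comm
  have h3 : ∀ u : Fin n → ℕ, ∑ j, ∑ l,
      s j * s l * ((1 - zt c u j) * (1 - zt c u l) - if j = l then et c u j else 0)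
        = ((∑ j, s j) - zs c s u) ^ 2 - ds c s u := by
    intro u
    have h4 : ∀ j, ∑ l,
        s j * s l * ((1 - zt c u j) * (1 - zt c u l) - if j = l then et c u j else 0)
          = s j * (1 - zt c u j) * ((∑ l, s l) - zs c s u) - s j ^ 2 * et c u j := by
      intro j
      have h5 : ∀ l, s j * s l * ((1 - zt c u j) * (1 - zt c u l)
            - if j = l then et c u j else 0)
          = s j * (1 - zt c u j) * (s l - s l * zt c u l)
            - (if j = l then s j * s l * et c u j else 0) := by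
        intro l
        by_cases hjl : j = l
        · simp only [hjl, if_true]
          ring
        · simp only [hjl, if_false]
          ring
      rw [Finset.sum_congr rfl (fun l _ => h5 l), Finset.sum_sub_distrib, ← Finset.mul_sum,
        Finset.sum_sub_distrib, ← zs_eq, Finset.sum_ite_eq]
      simp only [Finset.mem_univ, if_true]
      ring
    rw [Finset.sum_congr rfl (fun j _ => h4 j), Finset.sum_sub_distrib, ← Finset.sum_mul,
      ← ds_eq]
    have h6 : ∑ j, s j * (1 - zt c u j) = (∑ j, s j) - zs c s u := by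
      rw [zs_eq, ← Finset.sum_sub_distrib]
      refine Finset.sum_congr rfl (fun j _ => ?_)
      ring
    rw [h6]
    ring
  rw [h2, Finset.sum_congr rfl (fun u _ => h3 u)]
  unfold lS qS
  rw [wS_eq_sum, Finset.mul_sum, Finset.mul_sum, ← Finset.sum_sub_distrib,
    ← Finset.sum_add_distrib]
  refine Finset.sum_congr rfl (fun u _ => ?_)
  ring

/-- The inequality `G(c; r) ∑_{j,l} s_j s_l G(c - e_j - e_l; r) ≤ (∑_j s_j G(c - e_j; r))²`,
from the property `Lor` of the level sequences. -/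
theorem star_of_Lor (c : Fin n → ℕ) (s : Fin n → ℝ)
    (hL : Lor (∑ j, c j) (wS c) (lS c s) (qS c s)) (r : ℕ) :
    (G0 c r : ℝ) * ∑ j, ∑ l, s j * s l * (G2 c r j l : ℝ)
      ≤ (∑ j, s j * (G1 c r j : ℝ)) ^ 2 := by
  rw [sum_G1, sum_G2, G0_eq]
  have h := Lor_gamma hL (r : ℤ)
  nlinarith [h]

theorem G2_symm (c : Fin n → ℕ) (r : ℕ) (j l : Fin n) : G2 c r j l = G2 c r l j := by
  unfold G2
  congr 1
  ext u
  rw [mem_S2, mem_S2]
  refine and_congr (forall_congr' (fun i => ?_)) Iff.rfl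
  rw [add_right_comm]

theorem G2_le_G1 (c : Fin n → ℕ) (r : ℕ) (j l : Fin n) : G2 c r j l ≤ G1 c r j := by
  unfold G2 G1
  apply Finset.card_le_card
  intro u hu
  rw [mem_S2] at hu
  rw [mem_S1]
  refine ⟨fun i => ?_, hu.2⟩
  have := hu.1 i
  omega

theorem G2_le_G0 (c : Fin n → ℕ) (r : ℕ) (j l : Fin n) : G2 c r j l ≤ G0 c r := by
  unfold G2 G0
  apply Finset.card_le_card
  intro u hu
  rw [mem_S2] at hu
  rw [mem_S0]
  refine ⟨fun i => ?_, hu.2⟩
  have := hu.1 i
  omega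

/-- Negative correlation: a weight `σ` that is centred for the array `G2 c r` has a
nonpositive quadratic form. -/
theorem negCorr_of_star (c : Fin n → ℕ) (r : ℕ)
    (hstar : ∀ s : Fin n → ℝ, (G0 c r : ℝ) * ∑ j, ∑ l, s j * s l * (G2 c r j l : ℝ)
      ≤ (∑ j, s j * (G1 c r j : ℝ)) ^ 2)
    (σ : Fin n → ℝ) (h0 : ∑ j, ∑ l, σ j * (G2 c r j l : ℝ) = 0) :
    ∑ j, ∑ l, σ j * σ l * (G2 c r j l : ℝ) ≤ 0 := by
  by_cases hG : G0 c r = 0
  · refine le_of_eq (Finset.sum_eq_zero (fun j _ => Finset.sum_eq_zero (fun l _ => ?_)))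
    have : G2 c r j l = 0 := Nat.le_zero.mp (hG ▸ G2_le_G0 c r j l)
    rw [this]
    simp
  by_cases hb : ∑ j, (G1 c r j : ℝ) = 0
  · refine le_of_eq (Finset.sum_eq_zero (fun j _ => Finset.sum_eq_zero (fun l _ => ?_)))
    have h1 : (G1 c r j : ℝ) = 0 :=
      (Finset.sum_eq_zero_iff_of_nonneg (fun i _ => Nat.cast_nonneg _)).mp hb j
        (Finset.mem_univ j)
    have h2 : G1 c r j = 0 := by exact_mod_cast h1
    have : G2 c r j l = 0 := Nat.le_zero.mp (h2 ▸ G2_le_G1 c r j l)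
    rw [this]
    simp
  have hGpos : (0 : ℝ) < (G0 c r : ℝ) := by
    exact_mod_cast Nat.pos_of_ne_zero hG
  set a : ℝ := ∑ j, σ j * (G1 c r j : ℝ) with ha
  set b : ℝ := ∑ j, (G1 c r j : ℝ) with hb'
  have hA0 : 0 ≤ ∑ j, ∑ l, (G2 c r j l : ℝ) :=
    Finset.sum_nonneg (fun j _ => Finset.sum_nonneg (fun l _ => Nat.cast_nonneg _))
  have h0' : ∑ j, ∑ l, σ l * (G2 c r j l : ℝ) = 0 := by
    rw [Finset.sum_comm]
    rw [← h0]
    refine Finset.sum_congr rfl (fun j _ => Finset.sum_congr rfl (fun l _ => ?_))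
    rw [G2_symm]
  have hτ := hstar (fun j => a - b * σ j)
  have h1 : ∑ j, (a - b * σ j) * (G1 c r j : ℝ) = 0 := by
    have : ∀ j, (a - b * σ j) * (G1 c r j : ℝ)
        = a * (G1 c r j : ℝ) - b * (σ j * (G1 c r j : ℝ)) :=
      fun j => by ring
    rw [Finset.sum_congr rfl (fun j _ => this j), Finset.sum_sub_distrib, ← Finset.mul_sum,
      ← Finset.mul_sum]
    ring
  have h2 : ∑ j, ∑ l, (a - b * σ j) * (a - b * σ l) * (G2 c r j l : ℝ)
      = a ^ 2 * (∑ j, ∑ l, (G2 c r j l : ℝ))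
        - a * b * (∑ j, ∑ l, σ l * (G2 c r j l : ℝ))
        - a * b * (∑ j, ∑ l, σ j * (G2 c r j l : ℝ))
        + b ^ 2 * (∑ j, ∑ l, σ j * σ l * (G2 c r j l : ℝ)) := by
    simp only [Finset.mul_sum, ← Finset.sum_add_distrib, ← Finset.sum_sub_distrib]
    refine Finset.sum_congr rfl (fun j _ => Finset.sum_congr rfl (fun l _ => ?_))
    ring
  rw [h1, h2, h0, h0'] at hτ
  have h3 : a ^ 2 * (∑ j, ∑ l, (G2 c r j l : ℝ))
      + b ^ 2 * (∑ j, ∑ l, σ j * σ l * (G2 c r j l : ℝ)) ≤ 0 := by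
    by_contra hcon
    push Not at hcon
    have := mul_pos hGpos hcon
    nlinarith
  have hb2 : 0 < b ^ 2 := by positivity
  have h4 : b ^ 2 * (∑ j, ∑ l, σ j * σ l * (G2 c r j l : ℝ)) ≤ 0 := by
    nlinarith [mul_nonneg (sq_nonneg a) hA0]
  by_contra hcon
  push Not at hcon
  have := mul_pos hb2 hcon
  linarith

/-- Negative correlation for every box, provided the column step preserves `Lor`. -/
theorem negCorr
    (hstep : ∀ (m C : ℕ) (t : ℝ) (w l q : ℤ → ℝ), Lor m w l q →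
      Lor (m + C) (addW C w) (addL C t w l) (addQ C t w l q))
    (c : Fin n → ℕ) (r : ℕ) (σ : Fin n → ℝ)
    (h0 : ∑ j, ∑ l, σ j * (G2 c r j l : ℝ) = 0) :
    ∑ j, ∑ l, σ j * σ l * (G2 c r j l : ℝ) ≤ 0 :=
  negCorr_of_star c r (fun s => star_of_Lor c s (Lor_box hstep n c s) r) σ h0

end Vale.Agent.Lib.P328.Box
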