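import Mathlib
import Vale.Agent.Lib.P328.helper25.BoxBridge
import Vale.Agent.Lib.P328.helper74.NegCorrStep

/-!
P328: the box inequality and the negative correlation of two unit rows, without hypotheses.

* `lor_box` : the level sequences of every box have the property `Lor`.
* `star` : `G(c; r) ∑_{j,l} s_j s_l G(c - e_j - e_l; r) ≤ (∑_j s_j G(c - e_j; r))²`.
* `negCorr_box` : a weight that is centred for the array `G(c - e_j - e_l; r)` has a
  nonpositive quadratic form.
-/

namespace Vale.Agent.Lib.P328.Box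

open Finset
open Vale.Agent.Lib.P328.helper74

variable {n : ℕ}

/-- The column step preserves `Lor` (quantified form). -/
theorem lor_step_all : ∀ (m C : ℕ) (t : ℝ) (w l q : ℤ → ℝ), Lor m w l q →
    Lor (m + C) (addW C w) (addL C t w l) (addQ C t w l q) :=
  fun _ C t _ _ _ h => Lor_step h C t

/-- The level sequences of every box have the property `Lor`. -/
theorem lor_box (c : Fin n → ℕ) (s : Fin n → ℝ) :
    Lor (∑ j, c j) (wS c) (lS c s) (qS c s) :=
  Lor_box lor_step_all n c s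

/-- `w_ρ q_ρ ≤ l_ρ²` for the level sequences of every box. -/
theorem wq_le_lsq (c : Fin n → ℕ) (s : Fin n → ℝ) (ρ : ℤ) :
    wS c ρ * qS c s ρ ≤ lS c s ρ ^ 2 :=
  Lor_gamma (lor_box c s) ρ

/-- The box inequality
`G(c; r) ∑_{j,l} s_j s_l G(c - e_j - e_l; r) ≤ (∑_j s_j G(c - e_j; r))²`. -/
theorem star (c : Fin n → ℕ) (r : ℕ) (s : Fin n → ℝ) :
    (G0 c r : ℝ) * ∑ j, ∑ l, s j * s l * (G2 c r j l : ℝ)
      ≤ (∑ j, s j * (G1 c r j : ℝ)) ^ 2 :=
  star_of_Lor c s (lor_box c s) r

/-- Negative correlation: a weight `σ` that is centred for the array `G2 c r` has a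
nonpositive quadratic form. -/
theorem negCorr_box (c : Fin n → ℕ) (r : ℕ) (σ : Fin n → ℝ)
    (h0 : ∑ j, ∑ l, σ j * (G2 c r j l : ℝ) = 0) :
    ∑ j, ∑ l, σ j * σ l * (G2 c r j l : ℝ) ≤ 0 :=
  negCorr lor_step_all c r σ h0

end Vale.Agent.Lib.P328.Box
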