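import Mathlib
import Vale.Agent.Lib.P328.helper1.LorCore

/-!
P328: the iterated transfers of the indicator of the point `(0 ; C)` count arrays.

Index set `ρ ⊕ γ` (`ρ` = rows, `γ` = column reservoirs).  The transfer of the cell `(i, j)`
moves units from the row coordinate `i` to the reservoir coordinate `j`.  Applying the transfers
of all the cells of a duplicate-free list `L` to the indicator of `(0 ; C)` gives, at the point
`p`, the number of arrays `k : ρ → γ → ℕ` supported on `L` with row sums `p (inl i)` and with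
`p (inr j) + (column sum j) = C j` (`foldr_transfer_delta_aux`, `foldr_transfer_delta`).
-/

namespace Vale.Agent.Lib.P328.NCq

open Finset

variable {ρ γ : Type*} [Fintype ρ] [DecidableEq ρ] [Fintype γ] [DecidableEq γ]

/-- The indicator of the point `(0 ; C)`. -/
def delta (C : γ → ℕ) (p : ρ ⊕ γ → ℕ) : ℝ := if p = Sum.elim (0 : ρ → ℕ) C then 1 else 0

/-- Replace the entry `(i0, j0)` of an array by `v`. -/
def setc (k : ρ → γ → ℕ) (i0 : ρ) (j0 : γ) (v : ℕ) : ρ → γ → ℕ :=
  fun i j => if i = i0 ∧ j = j0 then v else k i j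

/-- The arrays counted after the transfers of the cells of `L`. -/
def good (L : List (ρ × γ)) (C : γ → ℕ) (p : ρ ⊕ γ → ℕ) (k : ρ → γ → ℕ) : Prop :=
  (∀ i j, (i, j) ∉ L → k i j = 0) ∧ (∀ i, ∑ j, k i j = p (Sum.inl i)) ∧
    ∀ j, p (Sum.inr j) + ∑ i, k i j = C j

/-- The arrays with all entries at most `M`. -/
def box (M : ℕ) : Finset (ρ → γ → ℕ) :=
  Fintype.piFinset (fun _ => Fintype.piFinset (fun _ => Finset.range (M + 1)))

theorem mem_box {M : ℕ} {k : ρ → γ → ℕ} : k ∈ (box M : Finset (ρ → γ → ℕ)) ↔ ∀ i j, k i j ≤ M := by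
  simp [box, Fintype.mem_piFinset]

omit [Fintype ρ] [Fintype γ] in
theorem setc_apply (k : ρ → γ → ℕ) (i0 : ρ) (j0 : γ) (v : ℕ) (i : ρ) (j : γ) :
    setc k i0 j0 v i j = if i = i0 ∧ j = j0 then v else k i j := rfl

/-- Changing one value of a function changes its sum accordingly. -/
theorem sum_ite_add {α : Type*} [Fintype α] [DecidableEq α] (f : α → ℕ) (a0 : α) (v : ℕ) :
    (∑ a, if a = a0 then v else f a) + f a0 = (∑ a, f a) + v := by
  have h1 := Finset.add_sum_erase univ f (mem_univ a0)
  have h2 := Finset.add_sum_erase univ (fun a => if a = a0 then v else f a) (mem_univ a0)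
  have h3 : ∑ x ∈ univ.erase a0, (if x = a0 then v else f x) = ∑ x ∈ univ.erase a0, f x :=
    Finset.sum_congr rfl (fun x hx => if_neg (Finset.ne_of_mem_erase hx))
  rw [h3, if_pos rfl] at h2
  omega

omit [Fintype ρ] in
theorem sum_setc_row_ne (k : ρ → γ → ℕ) (i0 : ρ) (j0 : γ) (v : ℕ) {i : ρ} (h : i ≠ i0) :
    ∑ j, setc k i0 j0 v i j = ∑ j, k i j := by
  refine Finset.sum_congr rfl (fun j _ => ?_)
  rw [setc_apply, if_neg (fun hh => h hh.1)]

omit [Fintype ρ] in
theorem sum_setc_row (k : ρ → γ → ℕ) (i0 : ρ) (j0 : γ) (v : ℕ) :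
    (∑ j, setc k i0 j0 v i0 j) + k i0 j0 = (∑ j, k i0 j) + v := by
  have h := sum_ite_add (k i0) j0 v
  have e : ∑ j, setc k i0 j0 v i0 j = ∑ j, if j = j0 then v else k i0 j := by
    refine Finset.sum_congr rfl (fun j _ => ?_)
    rw [setc_apply]
    by_cases hj : j = j0
    · rw [if_pos ⟨rfl, hj⟩, if_pos hj]
    · rw [if_neg (fun hh => hj hh.2), if_neg hj]
  rw [e]
  exact h

omit [Fintype γ] in
theorem sum_setc_col_ne (k : ρ → γ → ℕ) (i0 : ρ) (j0 : γ) (v : ℕ) {j : γ} (h : j ≠ j0) :
    ∑ i, setc k i0 j0 v i j = ∑ i, k i j := by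
  refine Finset.sum_congr rfl (fun i _ => ?_)
  rw [setc_apply, if_neg (fun hh => h hh.2)]

omit [Fintype γ] in
theorem sum_setc_col (k : ρ → γ → ℕ) (i0 : ρ) (j0 : γ) (v : ℕ) :
    (∑ i, setc k i0 j0 v i j0) + k i0 j0 = (∑ i, k i j0) + v := by
  have h := sum_ite_add (fun i => k i j0) i0 v
  have e : ∑ i, setc k i0 j0 v i j0 = ∑ i, if i = i0 then v else k i j0 := by
    refine Finset.sum_congr rfl (fun i _ => ?_)
    rw [setc_apply]
    by_cases hi : i = i0
    · rw [if_pos ⟨hi, rfl⟩, if_pos hi]
    · rw [if_neg (fun hh => hi hh.1), if_neg hi]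
  rw [e]
  exact h

omit [Fintype ρ] [Fintype γ] in
theorem setc_setc (k : ρ → γ → ℕ) (i0 : ρ) (j0 : γ) (v w : ℕ) (h : k i0 j0 = w) :
    setc (setc k i0 j0 v) i0 j0 w = k := by
  funext i j
  rw [setc_apply, setc_apply]
  by_cases hh : i = i0 ∧ j = j0
  · rw [if_pos hh, hh.1, hh.2, h]
  · rw [if_neg hh, if_neg hh]

omit [Fintype ρ] [Fintype γ] [DecidableEq γ] in
/-- The point reached from `p` by moving `t` units from the row `i0` to the reservoir `j0`. -/
theorem move_inl [DecidableEq (ρ ⊕ γ)] (p : ρ ⊕ γ → ℕ) (i0 : ρ) (j0 : γ) (a b : ℕ) (i : ρ) :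
    Function.update (Function.update p (Sum.inl i0) a) (Sum.inr j0) b (Sum.inl i)
      = if i = i0 then a else p (Sum.inl i) := by
  rw [Function.update_of_ne (by simp)]
  by_cases h : i = i0
  · subst h; rw [Function.update_self, if_pos rfl]
  · rw [Function.update_of_ne (by simpa using h), if_neg h]

omit [Fintype ρ] [Fintype γ] [DecidableEq ρ] in
theorem move_inr [DecidableEq (ρ ⊕ γ)] (p : ρ ⊕ γ → ℕ) (i0 : ρ) (j0 : γ) (a b : ℕ) (j : γ) :
    Function.update (Function.update p (Sum.inl i0) a) (Sum.inr j0) b (Sum.inr j)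
      = if j = j0 then b else p (Sum.inr j) := by
  by_cases h : j = j0
  · subst h; rw [Function.update_self, if_pos rfl]
  · rw [Function.update_of_ne (by simpa using h), Function.update_of_ne (by simp), if_neg h]

open Classical in
/-- Peeling the cell `(i0, j0)`: the arrays of the list `(i0, j0) :: L` at `p` whose entry
`(i0, j0)` equals `t` correspond to the arrays of `L` at the point reached from `p` by moving
`t` units from the row `i0` to the reservoir `j0`. -/
theorem card_fiber (M : ℕ) (C : γ → ℕ) (L : List (ρ × γ)) (i0 : ρ) (j0 : γ)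
    (h0 : (i0, j0) ∉ L) (p : ρ ⊕ γ → ℕ) (hp : ∀ i, p (Sum.inl i) ≤ M) (t : ℕ)
    (ht : t ≤ p (Sum.inl i0)) :
    (((box M).filter (good ((i0, j0) :: L) C p)).filter (fun k => k i0 j0 = t)).card
      = ((box M).filter (good L C (Function.update (Function.update p (Sum.inl i0)
          (p (Sum.inl i0) - t)) (Sum.inr j0) (p (Sum.inr j0) + t)))).card := by
  refine Finset.card_nbij' (fun k => setc k i0 j0 0) (fun k => setc k i0 j0 t) ?_ ?_ ?_ ?_
  · intro k hk
    simp only [Finset.mem_coe, Finset.mem_filter, mem_box] at hk ⊢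
    obtain ⟨⟨hbox, hs, hr, hc⟩, hkt⟩ := hk
    refine ⟨?_, ?_, ?_, ?_⟩
    · intro i j
      rw [setc_apply]
      split_ifs
      · exact Nat.zero_le _
      · exact hbox i j
    · intro i j hij
      rw [setc_apply]
      by_cases hh : i = i0 ∧ j = j0
      · rw [if_pos hh]
      · rw [if_neg hh]
        refine hs i j ?_
        intro hmem
        rcases List.mem_cons.mp hmem with h1 | h1
        · exact hh ⟨(Prod.mk.inj h1).1, (Prod.mk.inj h1).2⟩
        · exact hij h1
    · intro i
      rw [move_inl]
      by_cases hi : i = i0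
      · subst hi
        rw [if_pos rfl]
        have h1 := sum_setc_row k i j0 0
        have h2 := hr i
        omega
      · rw [if_neg hi, sum_setc_row_ne k i0 j0 0 hi]
        exact hr i
    · intro j
      rw [move_inr]
      by_cases hj : j = j0
      · subst hj
        rw [if_pos rfl]
        have h1 := sum_setc_col k i0 j 0
        have h2 := hc j
        omega
      · rw [if_neg hj, sum_setc_col_ne k i0 j0 0 hj]
        exact hc j
  · intro k hk
    simp only [Finset.mem_coe, Finset.mem_filter, mem_box] at hk ⊢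
    obtain ⟨hbox, hs, hr, hc⟩ := hk
    have hk0 : k i0 j0 = 0 := hs i0 j0 h0
    refine ⟨⟨?_, ?_, ?_, ?_⟩, ?_⟩
    · intro i j
      rw [setc_apply]
      split_ifs
      · exact le_trans ht (hp i0)
      · exact hbox i j
    · intro i j hij
      rw [setc_apply]
      by_cases hh : i = i0 ∧ j = j0
      · exact absurd (by rw [hh.1, hh.2]; exact List.mem_cons_self) hij
      · rw [if_neg hh]
        exact hs i j (fun hmem => hij (List.mem_cons_of_mem _ hmem))
    · intro i
      have h2 := hr i
      rw [move_inl] at h2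
      by_cases hi : i = i0
      · subst hi
        rw [if_pos rfl] at h2
        have h1 := sum_setc_row k i j0 t
        omega
      · rw [if_neg hi] at h2
        rw [sum_setc_row_ne k i0 j0 t hi]
        exact h2
    · intro j
      have h2 := hc j
      rw [move_inr] at h2
      by_cases hj : j = j0
      · subst hj
        rw [if_pos rfl] at h2
        have h1 := sum_setc_col k i0 j t
        omega
      · rw [if_neg hj] at h2
        rw [sum_setc_col_ne k i0 j0 t hj]
        exact h2
    · rw [setc_apply, if_pos ⟨rfl, rfl⟩]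
  · intro k hk
    simp only [Finset.mem_coe, Finset.mem_filter] at hk
    exact setc_setc k i0 j0 0 t hk.2
  · intro k hk
    simp only [Finset.mem_coe, Finset.mem_filter] at hk
    exact setc_setc k i0 j0 t 0 (hk.2.1 i0 j0 h0)

open Classical in
/-- The transfers of the cells of a duplicate-free list `L`, applied to the indicator of
`(0 ; C)`, count the arrays supported on `L` (entries bounded by any `M` above the row values
of `p`). -/
theorem foldr_transfer_delta_aux (M : ℕ) (C : γ → ℕ) (L : List (ρ × γ)) (hL : L.Nodup) :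
    ∀ p : ρ ⊕ γ → ℕ, (∀ i, p (Sum.inl i) ≤ M) →
      L.foldr (fun cell G => transfer (Sum.inr cell.2) (Sum.inl cell.1) G) (delta C) p
        = (((box M).filter (good L C p)).card : ℝ) := by
  induction L with
  | nil =>
    intro p _
    rw [List.foldr_nil]
    unfold delta
    by_cases hp0 : p = Sum.elim (0 : ρ → ℕ) C
    · rw [if_pos hp0]
      have : (box M).filter (good ([] : List (ρ × γ)) C p) = {0} := by
        ext k
        simp only [Finset.mem_filter, Finset.mem_singleton, mem_box]
        constructor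
        · rintro ⟨-, hs, -, -⟩
          funext i j
          exact hs i j (List.not_mem_nil)
        · rintro rfl
          refine ⟨fun i j => Nat.zero_le _, fun i j _ => rfl, fun i => ?_, fun j => ?_⟩
          · rw [hp0]; simp
          · rw [hp0]; simp
      rw [this, Finset.card_singleton, Nat.cast_one]
    · rw [if_neg hp0]
      have : (box M).filter (good ([] : List (ρ × γ)) C p) = ∅ := by
        refine Finset.filter_eq_empty_iff.mpr ?_
        intro k _ hk
        obtain ⟨hs, hr, hc⟩ := hk
        apply hp0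
        have hk0 : k = 0 := by
          funext i j
          exact hs i j (List.not_mem_nil)
        subst hk0
        funext x
        cases x with
        | inl i => have := hr i; simpa using this.symm
        | inr j => have := hc j; simpa using this
      rw [this, Finset.card_empty, Nat.cast_zero]
  | cons cell L ih =>
    obtain ⟨i0, j0⟩ := cell
    obtain ⟨h0, hL'⟩ := List.nodup_cons.mp hL
    intro p hp
    rw [List.foldr_cons]
    show ∑ t ∈ Finset.range (p (Sum.inl i0) + 1),
        L.foldr (fun cell G => transfer (Sum.inr cell.2) (Sum.inl cell.1) G) (delta C)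
          (Function.update (Function.update p (Sum.inl i0) (p (Sum.inl i0) - t)) (Sum.inr j0)
            (p (Sum.inr j0) + t)) = _
    have hstep : ∀ t ∈ Finset.range (p (Sum.inl i0) + 1),
        L.foldr (fun cell G => transfer (Sum.inr cell.2) (Sum.inl cell.1) G) (delta C)
          (Function.update (Function.update p (Sum.inl i0) (p (Sum.inl i0) - t)) (Sum.inr j0)
            (p (Sum.inr j0) + t))
        = ((((box M).filter (good ((i0, j0) :: L) C p)).filter (fun k => k i0 j0 = t)).card : ℝ) := by
      intro t ht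
      have ht' : t ≤ p (Sum.inl i0) := Nat.lt_succ_iff.mp (Finset.mem_range.mp ht)
      rw [card_fiber M C L i0 j0 h0 p hp t ht']
      refine ih hL' _ ?_
      intro i
      rw [move_inl]
      split_ifs
      · exact le_trans (Nat.sub_le _ _) (hp i0)
      · exact hp i
    rw [Finset.sum_congr rfl hstep, ← Nat.cast_sum]
    congr 1
    refine (Finset.card_eq_sum_card_fiberwise ?_).symm
    intro k hk
    simp only [Finset.mem_coe, Finset.mem_filter] at hk
    simp only [Finset.coe_range, Set.mem_Iio]
    have h1 := hk.2.2.1 i0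
    have h2 : k i0 j0 ≤ ∑ j, k i0 j :=
      Finset.single_le_sum (f := fun j => k i0 j) (fun j _ => Nat.zero_le _) (mem_univ j0)
    omega

/-- The transfers of all the cells, applied to the indicator of `(0 ; C)`, count the arrays
`k : ρ → γ → ℕ` with row sums `p (inl i)` and with `p (inr j) + (column sum j) = C j`. -/
theorem foldr_transfer_delta (L : List (ρ × γ)) (hL : L.Nodup) (hall : ∀ x, x ∈ L)
    (C : γ → ℕ) (p : ρ ⊕ γ → ℕ) :
    L.foldr (fun cell G => transfer (Sum.inr cell.2) (Sum.inl cell.1) G) (delta C) p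
      = (Nat.card {k : ρ → γ → ℕ // (∀ i, ∑ j, k i j = p (Sum.inl i)) ∧
          ∀ j, p (Sum.inr j) + ∑ i, k i j = C j} : ℝ) := by
  classical
  have hp : ∀ i, p (Sum.inl i) ≤ ∑ i, p (Sum.inl i) := fun i =>
    Finset.single_le_sum (f := fun i => p (Sum.inl i)) (fun i _ => Nat.zero_le _) (mem_univ i)
  rw [foldr_transfer_delta_aux (∑ i, p (Sum.inl i)) C L hL p hp]
  congr 1
  refine (Nat.subtype_card _ ?_).symm
  intro k
  simp only [Finset.mem_filter, mem_box]
  constructor
  · rintro ⟨-, -, hr, hc⟩
    exact ⟨hr, hc⟩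
  · rintro ⟨hr, hc⟩
    refine ⟨fun i j => ?_, fun i j hij => absurd (hall (i, j)) hij, hr, hc⟩
    have h2 : k i j ≤ ∑ j, k i j :=
      Finset.single_le_sum (f := fun j => k i j) (fun j _ => Nat.zero_le _) (mem_univ j)
    exact le_trans (le_trans h2 (le_of_eq (hr i))) (hp i)

omit [DecidableEq ρ] [DecidableEq γ] in
/-- The product of the powers `0 ^ p (inl i)` and `0 ^ dist (p (inr j)) (C j)` is the indicator
of `(0 ; C)`. -/
theorem prod_zero_pow_eq_delta (C : γ → ℕ) (p : ρ ⊕ γ → ℕ) :
    (∏ i, (0 : ℝ) ^ p (Sum.inl i)) * ∏ j, (0 : ℝ) ^ Nat.dist (p (Sum.inr j)) (C j)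
      = delta C p := by
  unfold delta
  by_cases hp0 : p = Sum.elim (0 : ρ → ℕ) C
  · rw [if_pos hp0, hp0]
    simp
  · rw [if_neg hp0]
    by_cases hr : ∀ i, p (Sum.inl i) = 0
    · have hc : ∃ j, p (Sum.inr j) ≠ C j := by
        by_contra hcon
        push Not at hcon
        apply hp0
        funext x
        cases x with
        | inl i => simpa using hr i
        | inr j => simpa using hcon j
      obtain ⟨j, hj⟩ := hc
      have : ∏ j, (0 : ℝ) ^ Nat.dist (p (Sum.inr j)) (C j) = 0 :=
        Finset.prod_eq_zero (mem_univ j)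
          (zero_pow (fun h => hj (Nat.eq_of_dist_eq_zero h)))
      rw [this, mul_zero]
    · push Not at hr
      obtain ⟨i, hi⟩ := hr
      have : ∏ i, (0 : ℝ) ^ p (Sum.inl i) = 0 :=
        Finset.prod_eq_zero (mem_univ i) (zero_pow hi)
      rw [this, zero_mul]

end Vale.Agent.Lib.P328.NCq
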